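import Crest.Agent.N111.Api.Row

/-! # Row 111 API: Bessel vectors, row lemmas, finite propagation (fill the proofs IN PLACE). -/

set_option autoImplicit false
set_option linter.unusedSectionVars false
set_option linter.unusedVariables false

namespace Crest.Agent.N111

open MeasureTheory Topology Filter
open scoped InnerProductSpace

variable {K : Type} [NormedAddCommGroup K] [InnerProductSpace ℂ K] [CompleteSpace K]

/-- Minkowski's inequality for finite sums of squares -/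
theorem bes_mink {α : Type*} (F : Finset α) {a b : α → K} {x y : ℝ} (hx : 0 ≤ x) (hy : 0 ≤ y)
    (ha : ∑ μ ∈ F, ‖a μ‖ ^ 2 ≤ x ^ 2) (hb : ∑ μ ∈ F, ‖b μ‖ ^ 2 ≤ y ^ 2) :
    ∑ μ ∈ F, ‖a μ + b μ‖ ^ 2 ≤ (x + y) ^ 2 := by
  have h1 : ∑ μ ∈ F, ‖a μ‖ * ‖b μ‖ ≤ x * y := by
    refine le_of_sq_le_sq ?_ (mul_nonneg hx hy)
    refine (Finset.sum_mul_sq_le_sq_mul_sq F _ _).trans ?_
    rw [mul_pow]
    exact mul_le_mul ha hb (Finset.sum_nonneg fun _ _ => sq_nonneg _) (sq_nonneg _)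
  have h2 : ∑ μ ∈ F, ‖a μ + b μ‖ ^ 2 ≤
      ∑ μ ∈ F, (‖a μ‖ ^ 2 + 2 * (‖a μ‖ * ‖b μ‖) + ‖b μ‖ ^ 2) := by
    refine Finset.sum_le_sum fun μ _ => ?_
    have := pow_le_pow_left₀ (norm_nonneg _) (norm_add_le (a μ) (b μ)) 2
    nlinarith
  rw [Finset.sum_add_distrib, Finset.sum_add_distrib, ← Finset.mul_sum] at h2
  nlinarith

theorem bes_comm_apply {S T : K →L[ℂ] K} (h : Commute S T) (v : K) : S (T v) = T (S v) :=
  congrArg (fun A : K →L[ℂ] K => A v) h.eq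

theorem bes_sum_le {α : Type*} (F : Finset α) {a b : α → K} {c D : ℝ}
    (h : ∀ μ, ‖a μ‖ ≤ c * ‖b μ‖) (hb : ∑ μ ∈ F, ‖b μ‖ ^ 2 ≤ D) :
    ∑ μ ∈ F, ‖a μ‖ ^ 2 ≤ c ^ 2 * D := by
  refine le_trans (Finset.sum_le_sum fun μ _ => ?_)
    (((Finset.mul_sum F (fun μ => ‖b μ‖ ^ 2) (c ^ 2)).symm.le).trans
      (mul_le_mul_of_nonneg_left hb (sq_nonneg _)))
  rw [← mul_pow]
  exact pow_le_pow_left₀ (norm_nonneg _) (h μ) 2

namespace Ind

variable {I : Ind K} {B B' : ℝ} {η ζ : K} {T Y : K →L[ℂ] K}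

/-! ### Bessel vectors -/

theorem bes_ξ : I.Bes 1 I.ξ := fun Y hY F => by
  simpa using I.bes Y hY F
theorem Bes.of_sq (h : I.Bes B η) (hB : B ^ 2 ≤ B' ^ 2) : I.Bes B' η := fun Y hY F =>
  (h Y hY F).trans (mul_le_mul_of_nonneg_right hB (sq_nonneg _))

theorem Bes.abs (h : I.Bes B η) : I.Bes |B| η := h.of_sq (sq_abs B).ge

theorem Bes.mono (h : I.Bes B η) (hB : 0 ≤ B) (hB' : B ≤ B') : I.Bes B' η :=   h.of_sq (pow_le_pow_left₀ hB hB' 2)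

theorem Bes.add (h : I.Bes B η) (h' : I.Bes B' ζ) (hB : 0 ≤ B) (hB' : 0 ≤ B') :
    I.Bes (B + B') (η + ζ) := fun Y hY F => by
  simp only [map_add]
  rw [← mul_pow, add_mul]
  refine bes_mink F (mul_nonneg hB (norm_nonneg _)) (mul_nonneg hB' (norm_nonneg _)) ?_ ?_
  · rw [mul_pow]; exact h Y hY F
  · rw [mul_pow]; exact h' Y hY F

theorem Bes.smul (h : I.Bes B η) (c : ℂ) : I.Bes (‖c‖ * B) (c • η) := fun Y hY F => by
  rw [mul_pow, mul_assoc]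
  refine bes_sum_le F (fun μ => ?_) (h Y hY F)
  simp only [map_smul, norm_smul, le_refl]

theorem Bes.ρ (h : I.Bes B η) (ν : Γ) : I.Bes B (I.ρ ν η) := fun Y hY F => by
  refine le_trans (le_of_eq ?_) (h Y hY (F.map (Equiv.mulLeft ν⁻¹).toEmbedding))
  rw [Finset.sum_map]
  refine Finset.sum_congr rfl fun μ _ => ?_
  simp only [Equiv.coe_toEmbedding, Equiv.coe_mulLeft, mul_inv_rev, inv_inv, URep.mul_apply]

theorem Bes.C (h : I.Bes B η) {a : K →L[ℂ] K} (ha : a ∈ I.C) : I.Bes (‖a‖ * B) (a η) := fun Y hY F => by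
  rw [mul_pow, mul_assoc]
  refine bes_sum_le F (fun μ => ?_) (h Y hY F)
  rw [← bes_comm_apply (I.Cρ a ha μ⁻¹), ← bes_comm_apply (I.mem_N.1 hY a ha),
    ← bes_comm_apply (I.Cj a ha)]
  exact a.le_opNorm _

theorem Bes.U (h : I.Bes B η) (g : G) : I.Bes B (I.U g η) := fun Y hY F => by
  have hN : I.y g * (I.U g⁻¹ * Y * I.U g⁻¹⁻¹) ∈ I.N := mul_N (I.y_Q g).1 (conj_N hY g⁻¹)
  have h1 := h _ hN F
  have e1 : star (I.y g * (I.U g⁻¹ * Y * I.U g⁻¹⁻¹)) I.ξ = I.U g⁻¹ (star Y I.ξ) := by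
    simp only [star_mul, URep.star_apply, inv_inv, ContinuousLinearMap.mul_apply, I.V_ξ]
  rw [e1, URep.norm_map] at h1
  refine le_trans (le_of_eq (Finset.sum_congr rfl fun μ _ => ?_)) h1
  have hy : ∀ v, star (I.y g) (I.y g v) = v := fun v =>
    congrArg (fun A : K →L[ℂ] K => A v) (Unitary.mem_iff.1 (I.y_un g)).1
  rw [← ContinuousLinearMap.norm_map_of_mem_unitary (I.vv_unitary g)
    (I.j ((I.y g * (I.U g⁻¹ * Y * I.U g⁻¹⁻¹)) (I.ρ μ⁻¹ η))), bes_comm_apply (I.vv_j g)]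
  simp only [Ind.vv, ContinuousLinearMap.mul_apply, hy, inv_inv, URep.apply_inv_apply,
    bes_comm_apply (I.Uρ g μ⁻¹)]

theorem Bes.Q (h : I.Bes B η) (hT : T ∈ I.Q) : I.Bes (‖T‖ * B) (T η) := fun Y hY F => by
  have h1 := h _ (mul_N hY hT.1) F
  have h2 : ‖star (Y * T) I.ξ‖ ≤ ‖T‖ * ‖star Y I.ξ‖ := by
    rw [star_mul, ContinuousLinearMap.mul_apply, ← norm_star T]
    exact (star T).le_opNorm _
  have h3 := pow_le_pow_left₀ (norm_nonneg _) h2 2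
  refine le_trans (le_of_eq (Finset.sum_congr rfl fun μ _ => ?_)) (h1.trans ?_)
  · rw [ContinuousLinearMap.mul_apply, bes_comm_apply (hT.2 μ⁻¹)]
  · calc B ^ 2 * ‖star (Y * T) I.ξ‖ ^ 2 ≤ B ^ 2 * (‖T‖ * ‖star Y I.ξ‖) ^ 2 :=
          mul_le_mul_of_nonneg_left h3 (sq_nonneg _)
      _ = _ := by ring
theorem Bes.Q_one (h : I.Bes B η) (hT : T ∈ I.Q) (h1 : ∀ v, ‖T v‖ = ‖v‖) : I.Bes B (T η) := by
  refine (h.Q hT).of_sq ?_
  have h2 : ‖T‖ ≤ 1 := T.opNorm_le_bound zero_le_one fun v => by rw [h1, one_mul]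
  rw [mul_pow]
  exact mul_le_of_le_one_left (sq_nonneg _) (pow_le_one₀ (norm_nonneg _) h2)

theorem Bes.vv (h : I.Bes B η) (g : G) : I.Bes B (I.vv g η) :=   (h.Q_one (star_Q (I.y_Q g)) (I.norm_star_y g)).U g

theorem Bes.star_vv (h : I.Bes B η) (g : G) : I.Bes B (star (I.vv g) η) := by
  have := (h.U g⁻¹).Q_one (I.y_Q g) (I.norm_y g)
  simpa only [Ind.vv, star_mul, star_star, URep.star_apply, ContinuousLinearMap.mul_apply]
    using this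

theorem exists_bes_near (I : Ind K) (η : K) {ε : ℝ} (hε : 0 < ε) :
    ∃ B η', 0 ≤ B ∧ I.Bes B η' ∧ ‖η - η'‖ ≤ ε := by
  obtain ⟨η', hη', hd⟩ := I.dense.exists_dist_lt η hε
  have h : ∃ B, 0 ≤ B ∧ I.Bes B η' := by
    refine Submodule.span_induction (p := fun v _ => ∃ B, 0 ≤ B ∧ I.Bes B v) ?_ ?_ ?_ ?_ hη'
    · rintro v ⟨a, ha, μ, rfl⟩
      exact ⟨_, mul_nonneg (norm_nonneg a) zero_le_one, (bes_ξ.ρ μ).C ha⟩
    · exact ⟨0, le_rfl, fun Y hY F => by simp⟩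
    · rintro v w - - ⟨B, hB, h⟩ ⟨B', hB', h'⟩
      exact ⟨_, add_nonneg hB hB', h.add h' hB hB'⟩
    · rintro c v - ⟨B, hB, h⟩
      exact ⟨_, mul_nonneg (norm_nonneg c) hB, h.smul c⟩
  obtain ⟨B, hB, h⟩ := h
  exact ⟨B, η', hB, h, by rw [← dist_eq_norm]; exact hd.le⟩

theorem Bes.single (h : I.Bes B η) (hB : 0 ≤ B) (hY : Y ∈ I.N) (μ : Γ) :
    ‖I.j (Y (I.ρ μ⁻¹ η))‖ ≤ B * ‖star Y I.ξ‖ := by
  have h1 := h Y hY {μ}
  rw [Finset.sum_singleton, ← mul_pow] at h1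
  exact le_of_sq_le_sq h1 (mul_nonneg hB (norm_nonneg _))

theorem Bes.norm_Q_le (h : I.Bes B η) (hB : 0 ≤ B) (hT : T ∈ I.Q) : ‖T η‖ ≤ B * ‖star T I.ξ‖ := by
  refine le_of_sq_le_sq ?_ (mul_nonneg hB (norm_nonneg _))
  refine hasSum_le_of_sum_le (I.pars (T η)) fun F => ?_
  rw [mul_pow]
  refine le_trans (le_of_eq (Finset.sum_congr rfl fun μ _ => ?_)) (h T hT.1 F)
  rw [bes_comm_apply (hT.2 μ⁻¹)]

theorem Bes.norm_le (h : I.Bes B η) (hB : 0 ≤ B) : ‖η‖ ≤ B * ‖I.ξ‖ := by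
  simpa using h.norm_Q_le hB I.one_Q

theorem norm_star_ξ (hT : T ∈ I.Q) : ‖star T I.ξ‖ = ‖T I.ξ‖ := by
  have h1 := bes_ξ.norm_Q_le zero_le_one hT
  have h2 := bes_ξ.norm_Q_le zero_le_one (star_Q hT)
  rw [star_star] at h2
  linarith

theorem Q_eq_zero (hT : T ∈ I.Q) (h : T I.ξ = 0) : T = 0 := by
  refine ContinuousLinearMap.ext_on I.dense ?_
  rintro v ⟨a, ha, μ, rfl⟩
  rw [← bes_comm_apply (I.mem_N.1 hT.1 a ha), bes_comm_apply (hT.2 μ), h]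
  simp

/-- **row lemma** -/
theorem Bes.row (h : I.Bes B η) {Y : Γ → K →L[ℂ] K} (hY : ∀ μ, Y μ ∈ I.N) (F : Finset Γ) :
    ∑ μ ∈ F, ‖I.j (Y μ (I.ρ μ⁻¹ η))‖ ^ 2 ≤ B ^ 2 * ∑ μ ∈ F, ‖star (Y μ) I.ξ‖ ^ 2 := by
  rw [Finset.mul_sum]
  refine Finset.sum_le_sum fun μ _ => ?_
  simpa using h (Y μ) (hY μ) {μ}

/-- row lemma with finite overlap -/
theorem Bes.row_povm {Z : Type} [MeasurableSpace Z] (h : I.Bes B η) (P : POVM Z K)
    (hP : ∀ f, BM f → P.E f ∈ I.N) (hY : Y ∈ I.N) {e : Γ → Z → ℂ} (he : ∀ μ, BM (e μ))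
    (F : Finset Γ) {D : ℝ} (hD : ∀ z, ∑ μ ∈ F, ‖e μ z‖ ^ 2 ≤ D) :
    ∑ μ ∈ F, ‖I.j (Y (P.E (e μ) (I.ρ μ⁻¹ η)))‖ ^ 2 ≤ B ^ 2 * (D * ‖star Y I.ξ‖ ^ 2) := by
  refine (h.row (Y := fun μ => Y * P.E (e μ)) (fun μ => mul_N hY (hP _ (he μ))) F).trans
    (mul_le_mul_of_nonneg_left ?_ (sq_nonneg _))
  have h1 := P.sum_norm_E_sq_le F (e := fun μ z => (starRingEnd ℂ) (e μ z))
    (fun μ _ => (he μ).conj) (B := D) (fun z => by simpa using hD z) (star Y I.ξ)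
  refine le_trans (le_of_eq (Finset.sum_congr rfl fun μ _ => ?_)) h1
  rw [star_mul, P.E_star (he μ), ContinuousLinearMap.mul_apply]

theorem norm_star_y_sub (I : Ind K) (u : G) (v : K) :
    ‖star (I.y u) v - v‖ = ‖I.y u v - v‖ := by
  have hy : star (I.y u) (I.y u v) = v :=
    congrArg (fun A : K →L[ℂ] K => A v) (Unitary.mem_iff.1 (I.y_un u)).1
  rw [← I.norm_star_y u (I.y u v - v), map_sub, hy, norm_sub_rev]

/-- `y u` is uniformly close to `1` along orbits -/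
theorem y_near_one (I : Ind K) (η : K) {ε : ℝ} (hε : 0 < ε) : ∀ᶠ u in 𝓝 (1 : G), ∀ g,
    ‖star (I.y u) (I.U g η) - I.U g η‖ ≤ ε ∧ ‖I.y u (I.U g η) - I.U g η‖ ≤ ε := by
  obtain ⟨B, η', hB, hη', hd⟩ := I.exists_bes_near η (ε := ε / 4) (by positivity)
  have hc : Continuous fun u : G => B * ‖I.U u⁻¹ I.ξ - I.ξ‖ :=
    continuous_const.mul (((I.cont I.ξ).comp continuous_inv).sub continuous_const).norm
  have h0 : Tendsto (fun u : G => B * ‖I.U u⁻¹ I.ξ - I.ξ‖) (𝓝 1) (𝓝 0) := by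
    simpa using hc.tendsto 1
  filter_upwards [h0.eventually (gt_mem_nhds (show (0 : ℝ) < ε / 2 by positivity))] with u hu g
  rw [I.norm_star_y_sub, and_self]
  have h1 := (hη'.U g).norm_Q_le hB (sub_Q (I.y_Q u) I.one_Q)
  simp only [star_sub, star_one, ContinuousLinearMap.sub_apply, ContinuousLinearMap.one_apply,
    I.star_y_ξ] at h1
  have h2 : I.y u (I.U g η) - I.U g η = (I.y u (I.U g η') - I.U g η')
      + (I.y u (I.U g (η - η')) - I.U g (η - η')) := by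
    simp only [map_sub]; abel
  have h3 := norm_sub_le (I.y u (I.U g (η - η'))) (I.U g (η - η'))
  rw [I.norm_y, URep.norm_map] at h3
  rw [h2]
  refine (norm_add_le _ _).trans ?_
  linarith

theorem tendsto_star_y_ξ (I : Ind K) : Continuous fun g => star (I.y g) I.ξ := by
  simp only [I.star_y_ξ]
  exact (I.cont I.ξ).comp continuous_inv

theorem tendsto_al_conj {k : Fin 3} (h : (0 : Fin 3) ≠ k) (b : ℝ) :
    Tendsto (fun n : ℕ => al n * tv h b * (al n)⁻¹) atTop (𝓝 1) := by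
  refine tendsto_dg_conj_tv h ?_ b
  have e : (fun n : ℕ => dgl (-2 * (n : ℝ)) n k - dgl (-2 * (n : ℝ)) n 0) = fun n : ℕ => 3 * (n : ℝ) := by
    funext n
    fin_cases k
    · exact absurd rfl h
    · simp [dgl]; ring
    · simp [dgl]; ring
  rw [e]
  exact tendsto_natCast_atTop_atTop.const_mul_atTop (by norm_num)

theorem tendsto_y_orbit (I : Ind K) (η : K) {α : Type*} {l : Filter α} {u g : α → G}
    (hu : Tendsto u l (𝓝 1)) :
    Tendsto (fun t => ‖I.y (u t) (I.U (g t) η) - I.U (g t) η‖) l (𝓝 0) := by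
  refine (NormedAddGroup.tendsto_nhds_zero.2 fun ε hε => ?_)
  filter_upwards [hu.eventually (I.y_near_one η (half_pos hε))] with t ht
  rw [norm_norm]
  exact (ht (g t)).2.trans_lt (half_lt_self hε)

/-- limits along the flow are invariant under the unipotent radical -/
theorem limSet_commute (hT : T ∈ I.LimSet) {k : Fin 3} (h : (0 : Fin 3) ≠ k) (b : ℝ) :
    Commute T (I.U (tv h b)) := by
  obtain ⟨l, F, hl, hle, hF, hW⟩ := hT
  have key : ∀ ζ η, ⟪I.U (tv h b) ζ, T (I.U (tv h b) η)⟫_ℂ = ⟪ζ, T η⟫_ℂ := by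
    intro ζ η
    have h1 := (hW (I.U (tv h b) ζ) (I.U (tv h b) η)).sub (hW ζ η)
    have hu := (tendsto_al_conj h b).mono_left hle
    have h2 := ((I.tendsto_y_orbit ζ (g := fun n : ℕ => al n) hu).mul_const ‖η‖).add
      ((I.tendsto_y_orbit η (g := fun n : ℕ => al n) hu).const_mul ‖ζ‖)
    rw [zero_mul, mul_zero, add_zero] at h2
    refine sub_eq_zero.1 (tendsto_nhds_unique h1 (squeeze_zero_norm (fun n => ?_) h2))
    have hb : BM (F n) := bm_Γ (hF n)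
    have hm : ∀ v, ‖I.m (F n) v‖ ≤ ‖v‖ := fun v => by
      have := (I.m (F n)).le_of_opNorm_le (I.norm_m_le zero_le_one (hF n)) v
      rwa [one_mul] at this
    have e : ∀ v, I.U (al n) (I.U (tv h b) v) = I.vv (al n * tv h b * (al n)⁻¹)
        (I.y (al n * tv h b * (al n)⁻¹) (I.U (al n) v)) := fun v => by
      rw [← ContinuousLinearMap.mul_apply (I.vv _), ← I.U_eq, ← URep.mul_apply, ← URep.mul_apply,
        inv_mul_cancel_right]
    rw [I.inner_σ, I.inner_σ, e, e, ← bes_comm_apply (I.vv_m _ hb),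
      ContinuousLinearMap.inner_map_map_of_mem_unitary (I.vv_unitary _)]
    generalize al n * tv h b * (al n)⁻¹ = u
    have e2 : ⟪I.y u (I.U (al n) ζ), I.m (F n) (I.y u (I.U (al n) η))⟫_ℂ
        - ⟪I.U (al n) ζ, I.m (F n) (I.U (al n) η)⟫_ℂ
        = ⟪I.y u (I.U (al n) ζ) - I.U (al n) ζ, I.m (F n) (I.y u (I.U (al n) η))⟫_ℂ
        + ⟪I.U (al n) ζ, I.m (F n) (I.y u (I.U (al n) η) - I.U (al n) η)⟫_ℂ := by
      rw [inner_sub_left, map_sub, inner_sub_right]; ring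
    rw [e2]
    refine (norm_add_le _ _).trans (add_le_add ((norm_inner_le_norm _ _).trans ?_)
      ((norm_inner_le_norm _ _).trans ?_))
    · refine mul_le_mul_of_nonneg_left ((hm _).trans ?_) (norm_nonneg _)
      rw [I.norm_y, URep.norm_map]
    · rw [URep.norm_map]
      exact mul_le_mul_of_nonneg_left (hm _) (norm_nonneg _)
  ext η
  refine ext_inner_left ℂ fun ζ => ?_
  have := key (I.U (tv h b)⁻¹ ζ) η
  rw [URep.apply_inv_apply, ← URep.inner_right] at this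
  exact this

theorem limSet_N (hT : T ∈ I.LimSet) : T ∈ I.N := by
  obtain ⟨l, F, hl, hle, hF, hW⟩ := hT
  exact wtends_N (Eventually.of_forall fun k => I.σ_N (I.m_N (bm_Γ (hF k))) k) hW


/-! ### row operators -/

variable (I) in
/-- the row operator of `Y` -/
noncomputable def rw (Y : K →L[ℂ] K) : K →L[ℂ] LG K := rows fun μ => I.j * Y * I.ρ μ⁻¹

variable (I) in
/-- `Y` has a bounded row operator -/
def RB (Y : K →L[ℂ] K) (C : ℝ) : Prop := RowBd (fun μ => I.j * Y * I.ρ μ⁻¹) C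

variable (I) in
/-- the element of `Q` attached to a bounded row operator -/
noncomputable def xq (Y : K →L[ℂ] K) : K →L[ℂ] K := ContinuousLinearMap.adjoint I.J ∘L I.rw Y

theorem RB.apply {C : ℝ} (h : I.RB Y C) (η : K) (μ : Γ) : I.rw Y η μ = I.j (Y (I.ρ μ⁻¹ η)) :=   rows_apply h η μ

theorem RB.norm_le {C : ℝ} (h : I.RB Y C) (hC : 0 ≤ C) : ‖I.rw Y‖ ≤ C := norm_rows_le hC h

theorem inner_xq (I : Ind K) (Y : K →L[ℂ] K) (ζ η : K) :
    ⟪ζ, I.xq Y η⟫_ℂ = ⟪I.J ζ, I.rw Y η⟫_ℂ := by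
  rw [xq, ContinuousLinearMap.comp_apply, ContinuousLinearMap.adjoint_inner_right]
theorem RB.hasSum_xq {C : ℝ} (h : I.RB Y C) (ζ η : K) :
    HasSum (fun μ => ⟪I.j (I.ρ μ⁻¹ ζ), I.j (Y (I.ρ μ⁻¹ η))⟫_ℂ) ⟪ζ, I.xq Y η⟫_ℂ := by
  have := LG.hasSum_inner (I.J ζ) (I.rw Y η)
  simp only [I.J_apply, h.apply] at this
  rwa [I.inner_xq]

theorem RB.xq_Q {C : ℝ} (h : I.RB Y C) (hY : Y ∈ I.N) : I.xq Y ∈ I.Q := by
  refine ⟨I.mem_N.2 fun a ha => ?_, fun ν => ?_⟩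
  · ext η
    refine ext_inner_left ℂ fun ζ => ?_
    have h1 := h.hasSum_xq (star a ζ) η
    have h2 := h.hasSum_xq ζ (a η)
    have ha' := I.star_C a ha
    have e : ∀ v w, ⟪star a v, w⟫_ℂ = ⟪v, a w⟫_ℂ := fun v w =>
      ContinuousLinearMap.adjoint_inner_left a w v
    simp only [← bes_comm_apply (I.Cρ _ ha' _), ← bes_comm_apply (I.Cj _ ha'), e] at h1
    simp only [← bes_comm_apply (I.Cρ _ ha _), ← bes_comm_apply (I.mem_N.1 hY a ha),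
      ← bes_comm_apply (I.Cj _ ha)] at h2
    exact h1.unique h2
  · ext η
    refine ext_inner_left ℂ fun ζ => ?_
    have h1 := h.hasSum_xq (I.ρ ν⁻¹ ζ) η
    have h2 := (Equiv.mulLeft ν).hasSum_iff.2 (h.hasSum_xq ζ (I.ρ ν η))
    simp only [Function.comp_def, Equiv.coe_mulLeft, mul_inv_rev, URep.mul_apply,
      URep.inv_apply_apply] at h2
    rw [← URep.inner_right] at h1
    exact h2.unique h1

theorem RB.add {Y' : K →L[ℂ] K} {C C' : ℝ} (h : I.RB Y C) (h' : I.RB Y' C') (hC : 0 ≤ C)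
    (hC' : 0 ≤ C') : I.RB (Y + Y') (C + C') := fun η F => by
  simp only [mul_add, add_mul, ContinuousLinearMap.add_apply]
  rw [← mul_pow, add_mul]
  refine bes_mink F (mul_nonneg hC (norm_nonneg _)) (mul_nonneg hC' (norm_nonneg _)) ?_ ?_
  · rw [mul_pow]; exact h η F
  · rw [mul_pow]; exact h' η F

theorem RB.smul {C : ℝ} (h : I.RB Y C) (c : ℂ) : I.RB (c • Y) (‖c‖ * C) := fun η F => by
  rw [mul_pow, mul_assoc]
  refine bes_sum_le F (fun μ => ?_) (h η F)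
  simp only [ContinuousLinearMap.mul_apply, ContinuousLinearMap.smul_apply, map_smul, norm_smul,
    le_refl]
theorem sum_j_le (I : Ind K) (η : K) (F : Finset Γ) :
    ∑ μ ∈ F, ‖I.j (I.ρ μ⁻¹ η)‖ ^ 2 ≤ ‖η‖ ^ 2 :=
  sum_le_hasSum F (fun _ _ => sq_nonneg _) (I.pars η)

theorem rb_Q (hT : T ∈ I.Q) : I.RB T ‖T‖ := fun η F => by
  simp only [ContinuousLinearMap.mul_apply, bes_comm_apply (hT.2 _)]
  refine (I.sum_j_le (T η) F).trans ?_
  rw [← mul_pow]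
  exact pow_le_pow_left₀ (norm_nonneg _) (T.le_opNorm η) 2

theorem rw_Q (hT : T ∈ I.Q) (η : K) : I.rw T η = I.J (T η) := by
  ext μ
  rw [(rb_Q hT).apply, I.J_apply, bes_comm_apply (hT.2 _)]

theorem rb_trunc_one (Y : K →L[ℂ] K) (ν : Γ) :
    I.RB (Y * (I.ρ ν * I.j * I.j * I.ρ ν⁻¹)) ‖Y‖ := fun η F => by
  have h1 := I.sum_j_le η (F.map (Equiv.mulRight ν).toEmbedding)
  rw [Finset.sum_map] at h1
  refine bes_sum_le F (fun μ => ?_) h1
  simp only [ContinuousLinearMap.mul_apply, Equiv.coe_toEmbedding, Equiv.coe_mulRight,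
    mul_inv_rev, URep.mul_apply]
  refine (I.norm_j_apply_le _).trans ((Y.le_opNorm _).trans ?_)
  rw [URep.norm_map]
  exact mul_le_mul_of_nonneg_left (I.norm_j_apply_le _) (norm_nonneg _)

/-- truncation -/
theorem rb_trunc (Y : K →L[ℂ] K) (s : Finset Γ) : I.RB (Y * I.m (ic (s : Set Γ))) (s.card * ‖Y‖) :=
  by
  classical
  rw [I.m_finset, Finset.mul_sum]
  induction s using Finset.induction_on with
  | empty => intro η F; simp
  | insert ν s hν ih =>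
    rw [Finset.sum_insert hν, Finset.card_insert_of_notMem hν, Nat.cast_succ, add_mul, one_mul,
      add_comm (_ * ‖Y‖)]
    exact (rb_trunc_one Y ν).add ih (norm_nonneg _) (by positivity)

theorem tendsto_trunc (I : Ind K) (Y : K →L[ℂ] K) :
    Tendsto (fun s : Finset Γ => star (Y * I.m (ic (s : Set Γ))) I.ξ) atTop (𝓝 (star Y I.ξ)) := by
  rw [tendsto_iff_norm_sub_tendsto_zero]
  refine squeeze_zero (fun _ => norm_nonneg _) (fun s => ?_)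
    (tendsto_zero_iff_norm_tendsto_zero.1 (I.tendsto_mJ_compl (star Y I.ξ)))
  have hs : MeasurableSet (s : Set Γ) := MeasurableSet.of_discrete
  have h1 : star (I.m (ic (s : Set Γ))) = I.m (ic (s : Set Γ)) := I.mP.E_ic_star hs
  have h2 : I.m (ic (s : Set Γ)ᶜ) = 1 - I.m (ic (s : Set Γ)) := I.mP.E_ic_compl hs
  refine le_trans (le_of_eq ?_) (I.norm_m_apply_le _ _)
  rw [star_mul, h1, h2, norm_sub_rev]
  rfl

theorem RB.norm_bes {C : ℝ} (h : I.RB Y C) (hY : Y ∈ I.N) (hη : I.Bes B η) (hB : 0 ≤ B) :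
    ‖I.rw Y η‖ ≤ B * ‖star Y I.ξ‖ := by
  refine LG.norm_le (mul_nonneg hB (norm_nonneg _)) fun F => ?_
  simp only [h.apply, mul_pow]
  exact hη Y hY F

theorem RB.norm_sub_bes {Y' : K →L[ℂ] K} {C C' : ℝ} (h : I.RB Y C) (h' : I.RB Y' C') (hY : Y ∈ I.N)
    (hY' : Y' ∈ I.N) (hη : I.Bes B η) (hB : 0 ≤ B) :
    ‖I.rw Y η - I.rw Y' η‖ ≤ B * ‖star Y I.ξ - star Y' I.ξ‖ := by
  refine LG.norm_le (mul_nonneg hB (norm_nonneg _)) fun F => ?_
  have := hη _ (sub_N hY hY') F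
  simp only [star_sub, ContinuousLinearMap.sub_apply, map_sub] at this
  simp only [lp.coeFn_sub, Pi.sub_apply, h.apply, h'.apply, mul_pow]
  exact this

/-- rows of a covariant POVM with finite overlap are bounded on the whole space -/
theorem rb_of_overlap {Z : Type} [MeasurableSpace Z] (P : POVM Z K) {e : Γ → Z → ℂ}
    (he : ∀ μ, BM (e μ)) (hY : ∀ μ, Y * I.ρ μ⁻¹ = I.ρ μ⁻¹ * P.E (e μ)) {D : ℝ} (hD0 : 0 ≤ D)
    (hD : ∀ z (F : Finset Γ), ∑ μ ∈ F, ‖e μ z‖ ^ 2 ≤ D ^ 2) : I.RB Y D := fun η F => by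
  refine le_trans (Finset.sum_le_sum fun μ _ => ?_)
    (P.sum_norm_E_sq_le F (fun μ _ => he μ) (fun z => hD z F) η)
  refine pow_le_pow_left₀ (norm_nonneg _) ?_ 2
  simp only [mul_assoc, hY]
  refine (I.norm_j_apply_le _).trans (le_of_eq ?_)
  exact URep.norm_map _ _ _


variable (I) in
/-- the "trace" of the row operator of `Y` (a convergent series for `Y ∈ N`) -/
noncomputable def tz (Y : K →L[ℂ] K) : ℂ :=
  (∑' μ : Γ, ⟪I.j (I.ρ μ⁻¹ I.ξ), I.j (Y (I.ρ μ⁻¹ I.ξ))⟫_ℂ) / (‖I.ξ‖ ^ 2 : ℝ)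

theorem RB.τ_xq {C : ℝ} (h : I.RB Y C) : I.τ (I.xq Y) = I.tz Y := by
  rw [τ, tz, (h.hasSum_xq I.ξ I.ξ).tsum_eq]
theorem exists_row_ξ (hY : Y ∈ I.N) : ∃ x : LG K, (∀ μ, x μ = I.j (Y (I.ρ μ⁻¹ I.ξ))) ∧
    I.tz Y = ⟪I.J I.ξ, x⟫_ℂ / (‖I.ξ‖ ^ 2 : ℝ) := by
  have hm : Memℓp (fun μ : Γ => I.j (Y (I.ρ μ⁻¹ I.ξ))) 2 := by
    refine memℓp_gen' (C := ‖star Y I.ξ‖ ^ 2) fun F => ?_
    simpa using I.bes Y hY F
  refine ⟨⟨_, hm⟩, fun _ => rfl, ?_⟩
  have := LG.hasSum_inner (I.J I.ξ) ⟨_, hm⟩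
  simp only [I.J_apply] at this
  rw [tz, ← this.tsum_eq]

theorem norm_tz_sub_le {Y' : K →L[ℂ] K} (hY : Y ∈ I.N) (hY' : Y' ∈ I.N) :
    ‖I.tz Y - I.tz Y'‖ ≤ ‖star Y I.ξ - star Y' I.ξ‖ / ‖I.ξ‖ := by
  obtain ⟨x, hx, e⟩ := exists_row_ξ hY
  obtain ⟨x', hx', e'⟩ := exists_row_ξ hY'
  have h0 : 0 < ‖I.ξ‖ := norm_pos_iff.2 I.ξ_ne
  have h1 : ‖x - x'‖ ≤ ‖star Y I.ξ - star Y' I.ξ‖ := by
    refine LG.norm_le (norm_nonneg _) fun F => ?_
    have := I.bes _ (sub_N hY hY') F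
    simp only [star_sub, ContinuousLinearMap.sub_apply, map_sub] at this
    simp only [lp.coeFn_sub, Pi.sub_apply, hx, hx']
    exact this
  have h2 := norm_inner_le_norm (𝕜 := ℂ) (I.J I.ξ) (x - x')
  rw [I.norm_J] at h2
  rw [e, e', ← sub_div, ← inner_sub_right, norm_div, Complex.norm_real, Real.norm_eq_abs,
    abs_of_nonneg (sq_nonneg _), div_le_div_iff₀ (by positivity) h0]
  calc ‖⟪I.J I.ξ, x - x'⟫_ℂ‖ * ‖I.ξ‖ ≤ ‖I.ξ‖ * ‖star Y I.ξ - star Y' I.ξ‖ * ‖I.ξ‖ :=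
        mul_le_mul_of_nonneg_right (h2.trans (mul_le_mul_of_nonneg_left h1 h0.le)) h0.le
    _ = _ := by ring

theorem tz_one : I.tz 1 = 1 := by
  have h0 : 0 < ‖I.ξ‖ := norm_pos_iff.2 I.ξ_ne
  have := LG.hasSum_inner (I.J I.ξ) (I.J I.ξ)
  simp only [I.J_apply, I.inner_J] at this
  simp only [tz, ContinuousLinearMap.one_apply]
  rw [this.tsum_eq, inner_self_eq_norm_sq_to_K]
  have h1 : ((‖I.ξ‖ : ℝ) : ℂ) ≠ 0 := by exact_mod_cast h0.ne'
  push_cast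
  exact div_self (pow_ne_zero 2 h1)

/-- mixing for bounded row operators -/
theorem RB.mix {C : ℝ} (h : I.RB Y C) (hY : Y ∈ I.N) (ζ η : K) :
    Tendsto (fun k : ℕ => ⟪I.J (I.U (al k) ζ), I.rw Y (I.U (al k) η)⟫_ℂ) atTop
      (𝓝 (I.tz Y * ⟪ζ, η⟫_ℂ)) := by
  have := mix_σ I (h.xq_Q hY) ζ η
  simp only [I.inner_σ, I.inner_xq, h.τ_xq, ContinuousLinearMap.smul_apply,
    ContinuousLinearMap.one_apply, inner_smul_right] at this
  exact this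


end Ind

end Crest.Agent.N111
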