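import Crest.Agent.N111.Api.Bes

/-! # Row 111 API: truncated kernels, cut-off functions. -/

set_option autoImplicit false
set_option linter.unusedSectionVars false
set_option linter.unusedVariables false

namespace Crest.Agent.N111

open MeasureTheory Topology Filter
open scoped InnerProductSpace

variable {K : Type} [NormedAddCommGroup K] [InnerProductSpace ℂ K] [CompleteSpace K]

theorem Sh_mono {L R R' : ℝ} (h : R ≤ R') : Sh L R ⊆ Sh L R' :=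
  fun _ hμ => ⟨hμ.1.trans h, hμ.2.trans (by linarith)⟩

namespace FP

lemma sum_shift_le (t : K →L[ℂ] K) (ν : Γ) (x : LG K) (F : Finset Γ) :
    ∑ μ ∈ F, ‖t (x (μ * ν))‖ ^ 2 ≤ (‖t‖ * ‖x‖) ^ 2 := by
  have h := LG.sum_le x (F.map (Equiv.mulRight ν).toEmbedding)
  rw [Finset.sum_map] at h
  calc _ ≤ ∑ μ ∈ F, ‖t‖ ^ 2 * ‖x (μ * ν)‖ ^ 2 := Finset.sum_le_sum fun μ _ => by
        rw [← mul_pow]; gcongr; exact t.le_opNorm _
    _ ≤ _ := by rw [← Finset.mul_sum, mul_pow]; gcongr; exact h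

/-- the right shift with an operator coefficient -/
noncomputable def shf (t : K →L[ℂ] K) (ν : Γ) : LG K →L[ℂ] LG K :=
  LinearMap.mkContinuous
    { toFun := fun x => ⟨fun μ => t (x (μ * ν)), memℓp_gen' (C := (‖t‖ * ‖x‖) ^ 2) fun F => by
        simpa using sum_shift_le t ν x F⟩
      map_add' := fun x y => lp.ext (funext fun μ => map_add t _ _)
      map_smul' := fun c x => lp.ext (funext fun μ => map_smul t c _) } ‖t‖
    fun x => LG.norm_le (by positivity) (sum_shift_le t ν x)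

lemma shf_apply (t : K →L[ℂ] K) (ν : Γ) (x : LG K) (μ : Γ) : shf t ν x μ = t (x (μ * ν)) := rfl

lemma norm_shf_le (t : K →L[ℂ] K) (ν : Γ) (x : LG K) : ‖shf t ν x‖ ≤ ‖t‖ * ‖x‖ :=
  LG.norm_le (by positivity) (sum_shift_le t ν x)

lemma inner_shf (t : K →L[ℂ] K) (ν : Γ) (x y : LG K) :
    ⟪x, shf t ν y⟫_ℂ = ⟪shf (star t) ν⁻¹ x, y⟫_ℂ := by
  refine (LG.hasSum_inner x (shf t ν y)).unique ?_
  have := (Equiv.mulRight ν).hasSum_iff.2 (LG.hasSum_inner (shf (star t) ν⁻¹ x) y)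
  simpa only [Function.comp_def, shf_apply, Equiv.coe_mulRight, mul_inv_cancel_right,
    ContinuousLinearMap.star_eq_adjoint, ContinuousLinearMap.adjoint_inner_left] using this

lemma norm_comm_shf_le (t : K →L[ℂ] K) (ν : Γ) {F : Γ → ℂ} (hF : BM F) {δ : ℝ} (hδ : 0 ≤ δ)
    (h : ∀ μ, ‖F (μ * ν) - F μ‖ ≤ δ) (x : LG K) :
    ‖mulG K F (shf t ν x) - shf t ν (mulG K F x)‖ ≤ δ * (‖t‖ * ‖x‖) := by
  refine (LG.norm_le_of_le (y := shf t ν x) hδ fun μ => ?_).trans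
    (mul_le_mul_of_nonneg_left (norm_shf_le t ν x) hδ)
  rw [lp.coeFn_sub, Pi.sub_apply, mulG_apply hF, shf_apply, shf_apply, mulG_apply hF, map_smul,
    ← sub_smul, norm_smul, norm_sub_rev]
  gcongr
  exact h μ

/-- slowly varying cut-off functions -/
lemma exists_cutoff (s : Finset Γ) {δ : ℝ} (hδ : 0 < δ) : ∃ t : Finset Γ, ∀ S : Set Γ,
    ∃ χ : Γ → ℝ, (∀ μ, 0 ≤ χ μ ∧ χ μ ≤ 1) ∧ (∀ μ ∈ S, χ μ = 1) ∧
      (∀ μ, χ μ ≠ 0 → ∃ b ∈ t, μ * b⁻¹ ∈ S) ∧ ∀ ν ∈ s, ∀ μ, |χ (μ * ν) - χ μ| ≤ δ := by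
  classical
  open scoped Pointwise in
  obtain ⟨R, hR⟩ := exists_nat_one_div_lt hδ
  refine ⟨(Finset.range (R + 1)).biUnion fun n => (s ∪ s⁻¹) ^ n, fun S => ?_⟩
  have ex : ∀ μ, ∃ n, R + 1 ≤ n ∨ ∃ b ∈ (s ∪ s⁻¹) ^ n, μ * b⁻¹ ∈ S := fun μ => ⟨_, Or.inl le_rfl⟩
  have h1 : ∀ μ, Nat.find (ex μ) ≤ R + 1 := fun μ => Nat.find_min' _ (Or.inl le_rfl)
  have h2 : ∀ ν ∈ s ∪ s⁻¹, ∀ μ, Nat.find (ex (μ * ν)) ≤ Nat.find (ex μ) + 1 := fun ν hν μ => by
    refine Nat.find_min' _ ((Nat.find_spec (ex μ)).imp (by omega) ?_)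
    rintro ⟨b, hb, h⟩
    exact ⟨b * ν, by rw [pow_succ]; exact Finset.mul_mem_mul hb hν, by simpa [mul_assoc] using h⟩
  have hp : (0 : ℝ) < R + 1 := by positivity
  refine ⟨fun μ => 1 - Nat.find (ex μ) / (R + 1 : ℝ), fun μ => ⟨?_, ?_⟩, fun μ hμ => ?_,
    fun μ hμ => ?_, fun ν hν μ => ?_⟩
  · rw [sub_nonneg, div_le_one hp]; exact_mod_cast h1 μ
  · exact sub_le_self _ (by positivity)
  · have : Nat.find (ex μ) = 0 := (Nat.find_eq_zero _).2 (Or.inr ⟨1, by simp, by simpa⟩)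
    simp [this]
  · have h3 : Nat.find (ex μ) < R + 1 := lt_of_le_of_ne (h1 μ) fun h => hμ (by
      simp only [h]; push_cast; rw [div_self hp.ne', sub_self])
    obtain ⟨b, hb, h⟩ := (Nat.find_spec (ex μ)).resolve_left (by omega)
    exact ⟨b, Finset.mem_biUnion.2 ⟨_, Finset.mem_range.2 h3, hb⟩, h⟩
  · have h3 : (Nat.find (ex (μ * ν)) : ℝ) ≤ Nat.find (ex μ) + 1 := by
      exact_mod_cast h2 ν (Finset.mem_union_left _ hν) μ
    have h4 : (Nat.find (ex μ) : ℝ) ≤ Nat.find (ex (μ * ν)) + 1 := by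
      have := h2 ν⁻¹ (Finset.mem_union_right _ (Finset.inv_mem_inv hν)) (μ * ν)
      simp only [mul_inv_cancel_right] at this
      exact_mod_cast this
    rw [sub_sub_sub_cancel_left, ← sub_div, abs_div, abs_of_pos hp]
    refine le_trans ?_ hR.le
    gcongr
    rw [abs_le]; constructor <;> linarith

variable {I : Ind K} {T : K →L[ℂ] K}

variable (I) in
/-- the truncated kernel of `T` -/
noncomputable def Ts (T : K →L[ℂ] K) (s : Finset Γ) : LG K →L[ℂ] LG K :=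
  ∑ ν ∈ s, shf (I.j * T * I.ρ ν * I.j) ν

lemma Ts_J (T : K →L[ℂ] K) (s : Finset Γ) (η : K) :
    Ts I T s (I.J η) = I.rw (T * I.m (ic (s : Set Γ))) η := by
  refine lp.ext (funext fun μ => ?_)
  rw [(Ind.rb_trunc T s).apply, I.m_finset, Ts, _root_.sum_apply, lp.coeFn_sum, Finset.sum_apply]
  simp only [shf_apply, I.J_apply, mul_apply_eq_comp, _root_.sum_apply, map_sum, mul_inv_rev,
    URep.mul_apply]

lemma norm_J_sub_Ts (hT : T ∈ I.Q) (s : Finset Γ) {B : ℝ} {η : K} (hη : I.Bes B η) (hB : 0 ≤ B) :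
    ‖I.J (T η) - Ts I T s (I.J η)‖
      ≤ B * ‖star T I.ξ - star (T * I.m (ic (s : Set Γ))) I.ξ‖ := by
  rw [Ts_J, ← Ind.rw_Q hT]
  exact (Ind.rb_Q hT).norm_sub_bes (Ind.rb_trunc T s) hT.1
    (Ind.mul_N hT.1 (I.m_N (bm_ic_Γ _))) hη hB

lemma inner_Ts (hT : T ∈ I.Q) (s : Finset Γ) (x y : LG K) :
    ⟪x, Ts I T s y⟫_ℂ = ⟪Ts I (star T) (s.map (Equiv.inv Γ).toEmbedding) x, y⟫_ℂ := by
  simp only [Ts, _root_.sum_apply, inner_sum, sum_inner, Finset.sum_map, inner_shf]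
  refine Finset.sum_congr rfl fun ν _ => ?_
  have : star (I.j * T * I.ρ ν * I.j) = I.j * star T * I.ρ ν⁻¹ * I.j := by
    rw [mul_assoc I.j T, (hT.2 ν).eq]
    simp only [star_mul, I.j_sa, URep.star_apply, mul_assoc]
  rw [this]
  rfl

lemma norm_comm_Ts_le (T : K →L[ℂ] K) (s : Finset Γ) {F : Γ → ℂ} (hF : BM F) {δ : ℝ} (hδ : 0 ≤ δ)
    (h : ∀ ν ∈ s, ∀ μ, ‖F (μ * ν) - F μ‖ ≤ δ) (x : LG K) :
    ‖mulG K F (Ts I T s x) - Ts I T s (mulG K F x)‖ ≤ s.card * (δ * (‖T‖ * ‖x‖)) := by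
  simp only [Ts, _root_.sum_apply, map_sum, ← Finset.sum_sub_distrib]
  rw [← nsmul_eq_mul]
  refine (norm_sum_le _ _).trans (Finset.sum_le_card_nsmul _ _ _ fun ν hν => ?_)
  refine (norm_comm_shf_le _ ν hF hδ (h ν hν) x).trans ?_
  gcongr
  calc _ ≤ ‖I.j‖ * ‖T‖ * ‖I.ρ ν‖ * ‖I.j‖ := (norm_mul_le _ _).trans (by
        gcongr; exact norm_mul₃_le)
    _ ≤ 1 * ‖T‖ * 1 * 1 := by gcongr; exacts [I.norm_j_le, URep.norm_le _ _, I.norm_j_le]
    _ = _ := by ring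

/-- the commutator on Bessel vectors -/
lemma comm_bes (hT : T ∈ I.Q) {C B ε : ℝ} (hC : 0 ≤ C) (hB : 0 ≤ B) (hε : 0 < ε) :
    ∃ s : Finset Γ, ∃ δ > (0 : ℝ), ∀ ζ η, I.Bes B ζ → I.Bes B η → ∀ F : Γ → ℂ,
      (∀ μ, ‖F μ‖ ≤ C) → (∀ ν ∈ s, ∀ μ, ‖F (μ * ν) - F μ‖ ≤ δ) →
      ‖⟪ζ, (I.m F * T - T * I.m F) η⟫_ℂ‖ ≤ ε := by
  classical
  set M := B * ‖I.ξ‖ with hM
  have hM0 : 0 ≤ M := by positivity
  have he : 0 < ε / (3 * (M * C * B + 1)) := by positivity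
  obtain ⟨s₁, h₁⟩ := eventually_atTop.1 (Metric.tendsto_nhds.1 (I.tendsto_trunc T) _ he)
  obtain ⟨s₂, h₂⟩ := eventually_atTop.1 (Metric.tendsto_nhds.1 (I.tendsto_trunc (star T)) _ he)
  set s := s₁ ∪ s₂.map (Equiv.inv Γ).toEmbedding with hs
  replace h₁ := h₁ s Finset.subset_union_left
  replace h₂ := h₂ (s.map (Equiv.inv Γ).toEmbedding) fun ν hν => by simp [hs, hν]
  rw [dist_comm, dist_eq_norm] at h₁ h₂
  refine ⟨s, ε / (3 * (M * (s.card * (‖T‖ * M)) + 1)), by positivity,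
    fun ζ η hζ hη F hF hs => ?_⟩
  have bF := bm_Γ hF
  have e : ⟪ζ, (I.m F * T - T * I.m F) η⟫_ℂ
      = ⟪I.J ζ, mulG K F (I.J (T η) - Ts I T s (I.J η))⟫_ℂ
        + ⟪I.J ζ, mulG K F (Ts I T s (I.J η)) - Ts I T s (mulG K F (I.J η))⟫_ℂ
        - ⟪I.J (star T ζ) - Ts I (star T) (s.map (Equiv.inv Γ).toEmbedding) (I.J ζ),
            mulG K F (I.J η)⟫_ℂ := by
    rw [_root_.sub_apply, inner_sub_right, mul_apply_eq_comp, mul_apply_eq_comp,
      ← ContinuousLinearMap.adjoint_inner_left T, I.inner_m, I.inner_m, I.mJ_eq bF, I.mJ_eq bF,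
      map_sub, inner_sub_right, inner_sub_right, inner_sub_left, ← inner_Ts hT,
      ContinuousLinearMap.star_eq_adjoint]
    ring
  have n1 : ‖I.J ζ‖ ≤ M := by rw [I.norm_J]; exact hζ.norm_le hB
  have n2 : ‖I.J η‖ ≤ M := by rw [I.norm_J]; exact hη.norm_le hB
  have nF : ∀ x, ‖mulG K F x‖ ≤ C * ‖x‖ := (mulG K F).le_of_opNorm_le (norm_mulG_le hC hF)
  have k : ∀ a : ℝ, 0 ≤ a → a * (ε / (3 * (a + 1))) ≤ ε / 3 := fun a ha => by
    rw [← mul_div_assoc, div_le_div_iff₀ (by positivity) (by positivity)]; nlinarith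
  have b1 : ‖⟪I.J ζ, mulG K F (I.J (T η) - Ts I T s (I.J η))⟫_ℂ‖ ≤ ε / 3 :=
    calc _ ≤ M * (C * (B * (ε / (3 * (M * C * B + 1))))) := by
          refine (norm_inner_le_norm _ _).trans (mul_le_mul n1 ((nF _).trans ?_) (norm_nonneg _) hM0)
          gcongr
          exact (norm_J_sub_Ts hT s hη hB).trans (by gcongr)
      _ = _ := by ring
      _ ≤ _ := k (M * C * B) (by positivity)
  have b2 : ‖⟪I.J ζ, mulG K F (Ts I T s (I.J η)) - Ts I T s (mulG K F (I.J η))⟫_ℂ‖ ≤ ε / 3 :=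
    calc _ ≤ M * (s.card * (ε / (3 * (M * (s.card * (‖T‖ * M)) + 1)) * (‖T‖ * M))) := by
          refine (norm_inner_le_norm _ _).trans (mul_le_mul n1
            ((norm_comm_Ts_le T s bF (by positivity) hs _).trans ?_) (norm_nonneg _) hM0)
          gcongr
      _ = _ := by ring
      _ ≤ _ := k (M * (s.card * (‖T‖ * M))) (by positivity)
  have b3 : ‖⟪I.J (star T ζ) - Ts I (star T) (s.map (Equiv.inv Γ).toEmbedding) (I.J ζ),
      mulG K F (I.J η)⟫_ℂ‖ ≤ ε / 3 :=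
    calc _ ≤ B * (ε / (3 * (M * C * B + 1))) * (C * M) := by
          refine (norm_inner_le_norm _ _).trans (mul_le_mul ?_ ((nF _).trans ?_) (norm_nonneg _)
            (by positivity))
          · exact (norm_J_sub_Ts (Ind.star_Q hT) _ hζ hB).trans (by gcongr)
          · gcongr
      _ = _ := by ring
      _ ≤ _ := k (M * C * B) (by positivity)
  rw [e]
  linarith [norm_sub_le_of_le (norm_add_le_of_le b1 b2) b3]

end FP

end Crest.Agent.N111
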